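import Mathlib

/-!
# P193: the lamplighter group over an action, and its presentation
-/

namespace Vale.Agent.P193.Bh.Lamp

open Equiv

variable (G S : Type) [Group G] [MulAction G S]

/-- Finitely many lamps. -/
abbrev Lamps : Type := Multiplicative (S →₀ ZMod 2)

/-- The action on the lamps. -/
noncomputable def twist : G →* MulAut (Lamps S) where
  toFun g := AddEquiv.toMultiplicative (Finsupp.domCongr (MulAction.toPerm g))
  map_one' := by
    refine MulEquiv.ext fun v => Multiplicative.toAdd.injective (Finsupp.ext fun s => ?_)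
    simp [Finsupp.domCongr, Finsupp.equivMapDomain_apply]
  map_mul' g h := by
    refine MulEquiv.ext fun v => Multiplicative.toAdd.injective (Finsupp.ext fun s => ?_)
    simp [Finsupp.domCongr, Finsupp.equivMapDomain_apply, mul_smul]

/-- The lamplighter group. -/
abbrev Wreath : Type := Lamps S ⋊[twist G S] G

variable {G S}

/-- The lamp at `s`. -/
noncomputable def lamp (s : S) : Wreath G S :=
  SemidirectProduct.inl (Multiplicative.ofAdd (Finsupp.single s 1))

theorem twist_single (g : G) (s : S) :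
    twist G S g (Multiplicative.ofAdd (Finsupp.single s 1)) =
      Multiplicative.ofAdd (Finsupp.single (g • s) 1) := by
  refine Multiplicative.toAdd.injective (Finsupp.ext fun t => ?_)
  classical
  simp [twist, Finsupp.domCongr, Finsupp.single_apply]

theorem inr_lamp (g : G) (s : S) :
    SemidirectProduct.inr g * lamp s * (SemidirectProduct.inr g)⁻¹ = (lamp (g • s) : Wreath G S) := by
  rw [lamp, lamp, ← twist_single, SemidirectProduct.inl_aut, map_inv]

theorem hom_ext' {M : Type*} [Group M] {f g : Wreath G S →* M}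
    (hl : ∀ s, f (lamp s) = g (lamp s))
    (hr : ∀ x, f (SemidirectProduct.inr x) = g (SemidirectProduct.inr x)) : f = g := by
  refine SemidirectProduct.hom_ext (MonoidHom.ext fun v => ?_) (MonoidHom.ext hr)
  show f (SemidirectProduct.inl v) = g (SemidirectProduct.inl v)
  induction v using Multiplicative.rec with
  | _ v =>
    induction v using Finsupp.induction with
    | zero => simp
    | single_add s b v _ _ ih =>
      rw [ofAdd_add, map_mul, map_mul, map_mul, ih]
      congr 1
      rcases (by decide : ∀ b : ZMod 2, b = 0 ∨ b = 1) b with rfl | rfl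
      · simp
      · exact hl s

/-- A homomorphism from the lamps given by commuting involutions. -/
theorem exists_lampHom {M : Type*} [Group M] (τ : S → M) (h2 : ∀ s, τ s * τ s = 1)
    (hc : ∀ s t, Commute (τ s) (τ t)) :
    ∃ f : Lamps S →* M, ∀ s, f (Multiplicative.ofAdd (Finsupp.single s 1)) = τ s := by
  have hk := Subgroup.isMulCommutative_closure (k := Set.range τ)
    (by rintro _ ⟨s, rfl⟩ _ ⟨t, rfl⟩; exact hc s t)
  let _ : CommGroup (Subgroup.closure (Set.range τ)) :=
    { (inferInstance : Group (Subgroup.closure (Set.range τ))) with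
      mul_comm := fun a b => hk.is_comm.comm a b }
  let σ : S → Additive (Subgroup.closure (Set.range τ)) := fun s =>
    Additive.ofMul ⟨τ s, Subgroup.subset_closure ⟨s, rfl⟩⟩
  let F : (S →₀ ZMod 2) →+ Additive (Subgroup.closure (Set.range τ)) :=
    Finsupp.liftAddHom fun s => ZMod.lift 2 ⟨zmultiplesHom _ (σ s), by
      show ((2 : ℕ) : ℤ) • σ s = 0
      rw [natCast_zsmul, two_nsmul]
      exact Additive.toMul.injective (Subtype.ext (h2 s))⟩
  refine ⟨(Subgroup.closure (Set.range τ)).subtype.comp (AddMonoidHom.toMultiplicativeLeft F),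
    fun s => ?_⟩
  show ((F (Finsupp.single s 1)).toMul : M) = τ s
  simp only [F, Finsupp.liftAddHom_apply_single]
  rw [show (1 : ZMod 2) = ((1 : ℤ) : ZMod 2) by simp, ZMod.lift_coe]
  simp [σ]

/-- Presentation of the lamplighter group. -/
theorem wreath_fp [hG : Group.IsFinitelyPresented G] {a₀ a₁ : S} (hne : a₀ ≠ a₁)
    (trans2 : ∀ a b c d : S, a ≠ b → c ≠ d → ∃ g : G, g • a = c ∧ g • b = d)
    (hinf : ∀ s : S, ∃ g : G, g • a₀ = s) (hfg : (MulAction.stabilizer G a₀).FG) :
    Group.IsFinitelyPresented (Wreath G S) := by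
  classical
  obtain ⟨n, φ, hφ, hker⟩ := hG.out
  obtain ⟨R, hRfin, hR⟩ := hker
  obtain ⟨H, hH⟩ := hfg
  obtain ⟨g₁, hg₁⟩ := hinf a₁
  let ι : FreeGroup (Fin n) →* FreeGroup (Fin (n + 1)) := FreeGroup.map Fin.castSucc
  let t : FreeGroup (Fin (n + 1)) := FreeGroup.of (Fin.last n)
  let w : G → FreeGroup (Fin (n + 1)) := fun g => ι (Function.surjInv hφ g)
  let Rel : Set (FreeGroup (Fin (n + 1))) := ι '' R ∪ {t * t} ∪
    ((fun h => t * w h * t⁻¹ * (w h)⁻¹) '' (H : Set G)) ∪
    {t * (w g₁ * t * (w g₁)⁻¹) * t⁻¹ * (w g₁ * t * (w g₁)⁻¹)⁻¹}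
  let Φ : FreeGroup (Fin (n + 1)) →* Wreath G S :=
    FreeGroup.lift (Fin.snoc (fun i => SemidirectProduct.inr (φ (FreeGroup.of i))) (lamp a₀))
  have hΦι : ∀ x, Φ (ι x) = SemidirectProduct.inr (φ x) := fun x => by
    have : Φ.comp ι = SemidirectProduct.inr.comp φ := FreeGroup.ext_hom _ _ fun i => by simp [Φ, ι]
    exact DFunLike.congr_fun this x
  have hΦt : Φ t = lamp a₀ := by simp [Φ, t]
  have hΦw : ∀ g, Φ (w g) = SemidirectProduct.inr g := fun g => by
    rw [hΦι, Function.surjInv_eq hφ]
  have hlsq : ∀ s : S, (lamp s : Wreath G S) * lamp s = 1 := fun s => by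
    rw [lamp, ← map_mul, ← ofAdd_add, ← Finsupp.single_add, show (1 : ZMod 2) + 1 = 0 from rfl,
      Finsupp.single_zero, ofAdd_zero, map_one]
  have hlc : ∀ s s' : S, Commute (lamp s : Wreath G S) (lamp s') := fun s s' =>
    (Commute.all _ _).map SemidirectProduct.inl
  set N := Subgroup.normalClosure Rel with hN
  let P := FreeGroup (Fin (n + 1)) ⧸ N
  let π : FreeGroup (Fin (n + 1)) →* P := QuotientGroup.mk' N
  have hπ : ∀ x ∈ Rel, π x = 1 := fun x hx =>
    (QuotientGroup.eq_one_iff x).2 (Subgroup.subset_normalClosure hx)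
  -- the copy of `G`
  have hkerle : φ.ker ≤ (π.comp ι).ker := by
    rw [← hR]
    exact Subgroup.normalClosure_le_normal fun r hr =>
      hπ _ (Or.inl (Or.inl (Or.inl ⟨r, hr, rfl⟩)))
  let fg : G →* P := φ.liftOfRightInverse _ (Function.rightInverse_surjInv hφ) ⟨π.comp ι, hkerle⟩
  have hfgφ : ∀ x, fg (φ x) = π (ι x) := fun x =>
    φ.liftOfRightInverse_comp_apply _ (Function.rightInverse_surjInv hφ) ⟨π.comp ι, hkerle⟩ x
  have hfgw : ∀ g, π (w g) = fg g := fun g => by
    rw [← hfgφ, Function.surjInv_eq hφ]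
  set T : P := π t with hT
  have hT2 : T * T = 1 := by
    rw [hT, ← map_mul]
    exact hπ _ (Or.inl (Or.inl (Or.inr rfl)))
  have hstab : ∀ g ∈ MulAction.stabilizer G a₀, Commute T (fg g) := by
    intro g hg
    rw [← hH] at hg
    induction hg using Subgroup.closure_induction with
    | mem x hx =>
      have := hπ _ (Or.inl (Or.inr ⟨x, hx, rfl⟩))
      rw [map_mul, map_mul, map_mul, map_inv, map_inv, hfgw] at this
      exact mul_inv_eq_iff_eq_mul.1 (mul_inv_eq_one.1 this)
    | one => rw [map_one]; exact Commute.one_right _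
    | mul x y _ _ hx hy => rw [map_mul]; exact hx.mul_right hy
    | inv x _ hx => rw [map_inv]; exact hx.inv_right
  choose c hc using hinf
  let τ : S → P := fun s => fg (c s) * T * (fg (c s))⁻¹
  have hτ : ∀ g, fg g * T * (fg g)⁻¹ = τ (g • a₀) := by
    intro g
    have hm : (c (g • a₀))⁻¹ * g ∈ MulAction.stabilizer G a₀ := by
      rw [MulAction.mem_stabilizer_iff, mul_smul, inv_smul_eq_iff, hc]
    have h := (hstab _ hm).eq
    have e : g = c (g • a₀) * ((c (g • a₀))⁻¹ * g) := by group
    conv_lhs => rw [e, map_mul, mul_assoc (fg (c (g • a₀))), ← h]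
    simp only [τ]
    group
  have hτeq : ∀ g s, fg g * τ s * (fg g)⁻¹ = τ (g • s) := by
    intro g s
    have := hτ (g * c s)
    rw [mul_smul, hc] at this
    rw [← this, map_mul]
    simp only [τ]
    group
  have hτa : τ a₀ = T := by simpa using (hτ 1).symm
  have h01 : Commute T (τ a₁) := by
    have := hπ _ (Or.inr rfl)
    simp only [map_mul, map_inv, hfgw] at this
    rw [hτ g₁, hg₁] at this
    exact mul_inv_eq_iff_eq_mul.1 (mul_inv_eq_one.1 this)
  have hτc : ∀ s s', Commute (τ s) (τ s') := by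
    intro s s'
    by_cases h : s = s'
    · rw [h]
    obtain ⟨g, e0, e1⟩ := trans2 a₀ a₁ s s' hne h
    rw [← e0, ← e1, ← hτeq, ← hτeq, hτa]
    exact h01.map (MulAut.conj (fg g)).toMonoidHom
  obtain ⟨fn, hfn⟩ := exists_lampHom τ (fun s => by
    show fg (c s) * T * (fg (c s))⁻¹ * (fg (c s) * T * (fg (c s))⁻¹) = 1
    rw [show fg (c s) * T * (fg (c s))⁻¹ * (fg (c s) * T * (fg (c s))⁻¹) =
      fg (c s) * (T * T) * (fg (c s))⁻¹ by group, hT2, mul_one, mul_inv_cancel]) hτc
  have hcompat : ∀ g, fn.comp (MulEquiv.toMonoidHom (twist G S g)) =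
      (MulEquiv.toMonoidHom (MulAut.conj (fg g))).comp fn := by
    intro g
    refine MonoidHom.ext fun v => ?_
    induction v using Multiplicative.rec with
    | _ v =>
      induction v using Finsupp.induction with
      | zero => simp
      | single_add s b v _ _ ih =>
        rw [ofAdd_add, map_mul, map_mul, ih]
        congr 1
        rcases (by decide : ∀ b : ZMod 2, b = 0 ∨ b = 1) b with rfl | rfl
        · simp
        · simp only [MonoidHom.comp_apply, MulEquiv.coe_toMonoidHom, twist_single, hfn,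
            MulAut.conj_apply, hτeq]
  let χ : Wreath G S →* P := SemidirectProduct.lift fn fg hcompat
  have hχΦ : χ.comp Φ = π := by
    refine FreeGroup.ext_hom _ _ fun i => ?_
    refine Fin.lastCases ?_ (fun j => ?_) i
    · simp only [MonoidHom.comp_apply, Φ, FreeGroup.lift_apply_of, Fin.snoc_last, χ, lamp,
        SemidirectProduct.lift_inl, hfn, hτa]
      rfl
    · simp only [MonoidHom.comp_apply, Φ, FreeGroup.lift_apply_of, Fin.snoc_castSucc, χ,
        SemidirectProduct.lift_inr, hfgφ, ι, FreeGroup.map.of]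
  have hsurj : Function.Surjective Φ := by
    intro x
    have hl : ∀ v : Lamps S, SemidirectProduct.inl v ∈ Φ.range := by
      intro v
      induction v using Multiplicative.rec with
      | _ v =>
        induction v using Finsupp.induction with
        | zero => rw [ofAdd_zero, map_one]; exact one_mem _
        | single_add s b v _ _ ih =>
          rw [ofAdd_add, map_mul]
          refine mul_mem ?_ ih
          rcases (by decide : ∀ b : ZMod 2, b = 0 ∨ b = 1) b with rfl | rfl
          · simp
          · refine ⟨w (c s) * t * (w (c s))⁻¹, ?_⟩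
            rw [map_mul, map_mul, map_inv, hΦw, hΦt, inr_lamp, hc]
            rfl
    obtain ⟨u, hu⟩ := hl x.left
    refine ⟨u * w x.right, ?_⟩
    rw [map_mul, hu, hΦw, SemidirectProduct.inl_left_mul_inr_right]
  refine ⟨n + 1, Φ, hsurj, ⟨Rel, ?_, ?_⟩⟩
  · exact (((hRfin.image _).union (Set.finite_singleton _)).union
      ((H.finite_toSet).image _)).union (Set.finite_singleton _)
  refine le_antisymm (Subgroup.normalClosure_le_normal ?_) fun x hx => ?_
  · have htri : ∀ g, Φ (w g) * lamp a₀ * (Φ (w g))⁻¹ = lamp (g • a₀) := fun g => by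
      rw [hΦw, inr_lamp]
    rintro _ (((⟨r, hr, rfl⟩ | rfl) | ⟨h, hh, rfl⟩) | rfl) <;>
      simp only [SetLike.mem_coe, MonoidHom.mem_ker, map_mul, map_inv]
    · rw [hΦι, show φ r = 1 from MonoidHom.mem_ker.1 (hR ▸ Subgroup.subset_normalClosure hr), map_one]
    · rw [hΦt, hlsq]
    · have : h • a₀ = a₀ := MulAction.mem_stabilizer_iff.1 (hH ▸ Subgroup.subset_closure hh)
      rw [hΦt, mul_inv_eq_one, mul_inv_eq_iff_eq_mul]
      have := htri h
      rw [‹h • a₀ = a₀›, mul_inv_eq_iff_eq_mul] at this
      exact this.symm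
    · rw [hΦt, htri, hg₁, (hlc _ _).eq, mul_inv_cancel_right, mul_inv_cancel]
  · have : π x = 1 := by rw [← hχΦ, MonoidHom.comp_apply, MonoidHom.mem_ker.1 hx, map_one]
    exact (QuotientGroup.eq_one_iff x).1 this

end Vale.Agent.P193.Bh.Lamp
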