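import Mathlib

/-!
# P193: clopen sets of a Cantor cube and homomorphisms on them
-/

namespace Vale.Agent.P193.Bh.Lamp

open TopologicalSpace

variable {S : Type*}

/-- Pullback of a set of values. -/
def pull {α : Type*} [TopologicalSpace α] [DiscreteTopology α] {X : Type*} [TopologicalSpace X]
    (f : X → α) (hf : Continuous f) (A : Set α) : Clopens X :=
  ⟨f ⁻¹' A, (isClopen_discrete A).preimage hf⟩

/-- The points with a `true` at `s`. -/
def ev (s : S) : Clopens (S → Bool) := pull (fun y => y s) (continuous_apply s) {true}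

theorem mem_ev {s : S} {y : S → Bool} : y ∈ ev s ↔ y s = true := Iff.rfl

theorem mem_compl' {X : Type*} [TopologicalSpace X] {U : Clopens X} {y : X} :
    y ∈ Uᶜ ↔ y ∉ U := Iff.rfl

theorem mem_inf' {X : Type*} [TopologicalSpace X] {U V : Clopens X} {y : X} :
    y ∈ U ⊓ V ↔ y ∈ U ∧ y ∈ V := Iff.rfl

theorem mem_top' {X : Type*} [TopologicalSpace X] {y : X} : y ∈ (⊤ : Clopens X) := trivial

/-- A family containing the coordinates and closed under the operations is everything. -/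
theorem clopens_induction {P : Set (Clopens (S → Bool))} (htop : ⊤ ∈ P) (hev : ∀ s, ev s ∈ P)
    (hc : ∀ U ∈ P, Uᶜ ∈ P) (hi : ∀ U ∈ P, ∀ V ∈ P, U ⊓ V ∈ P) : ∀ U, U ∈ P := by
  classical
  intro U
  have hbot : (⊥ : Clopens (S → Bool)) ∈ P := compl_top (α := Clopens (S → Bool)) ▸ hc _ htop
  have hsup : ∀ A ∈ P, ∀ B ∈ P, A ⊔ B ∈ P := fun A hA B hB => by
    have := hc _ (hi _ (hc A hA) _ (hc B hB))
    rwa [compl_inf, compl_compl, compl_compl] at this
  have hcyl : ∀ (y : S → Bool) (I : Finset S), ∃ W ∈ P, ∀ y', y' ∈ W ↔ ∀ i ∈ I, y' i = y i := by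
    intro y I
    induction I using Finset.induction_on with
    | empty => exact ⟨⊤, htop, fun y' => by simp [mem_top']⟩
    | @insert i I _ ih =>
      obtain ⟨W, hW, hm⟩ := ih
      cases hy : y i
      · exact ⟨(ev i)ᶜ ⊓ W, hi _ (hc _ (hev i)) _ hW,
          fun y' => by simp [mem_inf', mem_compl', mem_ev, hm, hy]⟩
      · exact ⟨ev i ⊓ W, hi _ (hev i) _ hW, fun y' => by simp [mem_inf', mem_ev, hm, hy]⟩
  have hloc : ∀ y : U, ∃ W ∈ P, y.1 ∈ W ∧ W ≤ U := by
    rintro ⟨y, hy⟩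
    obtain ⟨I, u, hu, hsub⟩ := isOpen_pi_iff.1 U.isClopen.isOpen y hy
    obtain ⟨W, hW, hm⟩ := hcyl y I
    refine ⟨W, hW, (hm y).2 fun _ _ => rfl, fun y' hy' => hsub fun i hi' => ?_⟩
    rw [(hm y').1 hy' i hi']
    exact (hu i hi').2
  choose W hW hmem hle using hloc
  obtain ⟨t, ht⟩ := U.isClopen.isClosed.isCompact.elim_finite_subcover
    (fun y : U => (W y : Set (S → Bool))) (fun y => (W y).isClopen.isOpen)
    fun y hy => Set.mem_iUnion.2 ⟨⟨y, hy⟩, hmem ⟨y, hy⟩⟩
  have key : ∀ t : Finset U, ∃ V ∈ P, V ≤ U ∧ (⋃ y ∈ t, (W y : Set (S → Bool))) ⊆ V := by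
    intro t
    induction t using Finset.induction_on with
    | empty => exact ⟨⊥, hbot, bot_le, by simp⟩
    | @insert a t _ ih =>
      obtain ⟨V, hV, hVU, hsub⟩ := ih
      refine ⟨W a ⊔ V, hsup _ (hW a) _ hV, sup_le (hle a) hVU, ?_⟩
      rw [Finset.set_biUnion_insert]
      exact Set.union_subset_union subset_rfl hsub
  obtain ⟨V, hV, hVU, hsub⟩ := key t
  rwa [le_antisymm (fun y hy => hsub (ht hy) : U ≤ V) hVU]

/-- Every clopen depends on finitely many coordinates. -/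
theorem exists_support (U : Clopens (S → Bool)) :
    ∃ K : Finset S, ∀ y y' : S → Bool, (∀ i ∈ K, y i = y' i) → (y ∈ U ↔ y' ∈ U) := by
  classical
  refine clopens_induction (P := {U | ∃ K : Finset S, ∀ y y' : S → Bool,
    (∀ i ∈ K, y i = y' i) → (y ∈ U ↔ y' ∈ U)})
    ⟨∅, fun _ _ _ => Iff.rfl⟩ (fun s => ⟨{s}, fun y y' h => ?_⟩) ?_ ?_ U
  · simp [mem_ev, h s (Finset.mem_singleton_self s)]
  · rintro V ⟨K, hK⟩
    exact ⟨K, fun y y' h => by simp [mem_compl', hK y y' h]⟩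
  · rintro V ⟨K, hK⟩ V' ⟨K', hK'⟩
    exact ⟨K ∪ K', fun y y' h => by
      simp [mem_inf', hK y y' fun i hi => h i (Finset.mem_union_left _ hi),
        hK' y y' fun i hi => h i (Finset.mem_union_right _ hi)]⟩

variable {B : Type*} [BooleanAlgebra B]

/-- A two-valued point of a Boolean algebra. -/
structure Point (B : Type*) [BooleanAlgebra B] where
  val : B → Prop
  top : val ⊤
  compl : ∀ a, val aᶜ ↔ ¬ val a
  inf : ∀ a b, val (a ⊓ b) ↔ val a ∧ val b

theorem exists_point {a : B} (ha : a ≠ ⊥) : ∃ χ : Point B, χ.val a := by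
  classical
  have hd : Disjoint (Order.PFilter.principal a : Set B) (Order.Ideal.principal (⊥ : B) : Set B) :=
    Set.disjoint_left.2 fun x h1 h2 => ha (le_bot_iff.1 (le_trans
      (Order.PFilter.mem_principal.1 h1) (Order.Ideal.mem_principal.1 h2)))
  obtain ⟨J, hJ, -, hdis⟩ := DistribLattice.prime_ideal_of_disjoint_filter_ideal hd
  have hproper : (⊤ : B) ∉ J := fun h => Set.disjoint_left.1 hdis
    (show (⊤ : B) ∈ (Order.PFilter.principal a : Set B) from Order.PFilter.mem_principal.2 le_top) h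
  have hcases : ∀ x : B, x ∈ J ∨ xᶜ ∈ J := fun x =>
    hJ.mem_or_mem (by rw [inf_compl_eq_bot]; exact J.bot_mem)
  refine ⟨⟨fun x => x ∉ J, hproper, fun x => ?_, fun x y => ?_⟩, fun h =>
    Set.disjoint_left.1 hdis
      (show a ∈ (Order.PFilter.principal a : Set B) from Order.PFilter.mem_principal.2 le_rfl) h⟩
  · refine ⟨fun h hx => h ((hcases x).resolve_left hx), fun h hc => h fun hx => hproper ?_⟩
    have := Order.Ideal.sup_mem hx hc
    rwa [sup_compl_eq_top] at this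
  · refine ⟨fun h => ⟨fun hx => h (J.lower inf_le_left hx), fun hy => h (J.lower inf_le_right hy)⟩,
      fun h hxy => ?_⟩
    rcases hJ.mem_or_mem hxy with hx | hy
    exacts [h.1 hx, h.2 hy]

theorem eq_of_points {a b : B} (h : ∀ χ : Point B, χ.val a ↔ χ.val b) : a = b := by
  have key : ∀ a b : B, (∀ χ : Point B, χ.val a → χ.val b) → a ≤ b := fun a b h => by
    by_contra hn
    obtain ⟨χ, hχ⟩ := exists_point (a := a ⊓ bᶜ) fun e => hn (by
      rw [← disjoint_iff] at e; simpa using e.le_compl_right)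
    exact ((χ.compl b).1 ((χ.inf _ _).1 hχ).2) (h χ ((χ.inf _ _).1 hχ).1)
  exact le_antisymm (key a b fun χ => (h χ).1) (key b a fun χ => (h χ).2)

/-- The algebra of clopens is free on the coordinates. -/
theorem exists_hom (x : S → B) : ∃ F : Clopens (S → Bool) → B, F ⊤ = ⊤ ∧
    (∀ U, F Uᶜ = (F U)ᶜ) ∧ (∀ U V, F (U ⊓ V) = F U ⊓ F V) ∧ ∀ s, F (ev s) = x s := by
  classical
  let pt : Point B → S → Bool := fun χ s => decide (χ.val (x s))
  have h : ∀ U : Clopens (S → Bool), ∃ b : B, ∀ χ : Point B, χ.val b ↔ pt χ ∈ U := by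
    refine clopens_induction (P := {U | ∃ b : B, ∀ χ : Point B, χ.val b ↔ pt χ ∈ U})
      ⟨⊤, fun χ => by simp [χ.top, mem_top']⟩ (fun s => ⟨x s, fun χ => by simp [mem_ev, pt]⟩) ?_ ?_
    · rintro U ⟨b, hb⟩
      exact ⟨bᶜ, fun χ => by simp [χ.compl, mem_compl', hb]⟩
    · rintro U ⟨b, hb⟩ V ⟨c, hc⟩
      exact ⟨b ⊓ c, fun χ => by simp [χ.inf, mem_inf', hb, hc]⟩
  choose F hF using h
  refine ⟨F, eq_of_points fun χ => ?_, fun U => eq_of_points fun χ => ?_,
    fun U V => eq_of_points fun χ => ?_, fun s => eq_of_points fun χ => ?_⟩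
  · simp [hF, χ.top, mem_top']
  · simp [hF, χ.compl, mem_compl']
  · simp [hF, χ.inf, mem_inf']
  · simp [hF, mem_ev, pt]

end Vale.Agent.P193.Bh.Lamp
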