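import Vale.Agent.P193.Bh.Group.Interface2
import Vale.Agent.P193.Fp.Basic
import Vale.Agent.P193.Bh.Group.Lamp.Space
import Vale.Agent.P193.Bh.Group.Lamp.Group
import Vale.Agent.P196.Fp.Bool

/-!
# P193: the site of a group with an action of type A
-/

namespace Vale.Agent.P193.Bh.Lamp

open TopologicalSpace
open Vale.Agent.P193.Fp
open Vale.Agent.P196.Fp (EventAlgebra)

variable {G S : Type} [Group G] [MulAction G S]

/-- A configuration translated by lamps and moved by `G`. -/
noncomputable def act (q : Wreath G S) (y : S → Bool) : S → Bool :=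
  fun s => xor (decide (q.left.toAdd s ≠ 0)) (y (q.right⁻¹ • s))

theorem twist_apply (g : G) (v : Lamps S) (s : S) :
    (twist G S g v).toAdd s = v.toAdd (g⁻¹ • s) := by
  simp [twist, Finsupp.domCongr, Finsupp.equivMapDomain_apply]

theorem act_one (y : S → Bool) : act (1 : Wreath G S) y = y := by
  funext s; simp [act]

theorem act_mul (a b : Wreath G S) (y : S → Bool) : act (a * b) y = act a (act b y) := by
  have key : ∀ u v : ZMod 2, ∀ z : Bool,
      xor (decide (u + v ≠ 0)) z = xor (decide (u ≠ 0)) (xor (decide (v ≠ 0)) z) := by decide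
  funext s
  simp only [act, SemidirectProduct.mul_left, SemidirectProduct.mul_right, toAdd_mul,
    Finsupp.coe_add, Pi.add_apply, twist_apply, mul_inv_rev, mul_smul]
  exact key _ _ _

noncomputable instance : MulAction (Wreath G S) (S → Bool) where
  smul := act
  one_smul := act_one
  mul_smul := act_mul

theorem smul_def (q : Wreath G S) (y : S → Bool) (s : S) :
    (q • y) s = xor (decide (q.left.toAdd s ≠ 0)) (y (q.right⁻¹ • s)) := rfl

instance : ContinuousConstSMul (Wreath G S) (S → Bool) where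
  continuous_const_smul q := continuous_pi fun s => by
    show Continuous fun y : S → Bool => xor (decide (q.left.toAdd s ≠ 0)) (y (q.right⁻¹ • s))
    exact (continuous_of_discreteTopology (f := xor (decide (q.left.toAdd s ≠ 0)))).comp
      (continuous_apply _)

theorem inr_smul (g : G) (y : S → Bool) (s : S) :
    ((SemidirectProduct.inr g : Wreath G S) • y) s = y (g⁻¹ • s) := by simp [smul_def]

theorem lamp_inv (s : S) : (lamp s : Wreath G S)⁻¹ = lamp s := by
  rw [lamp, ← map_inv]
  congr 1
  refine Multiplicative.toAdd.injective ?_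
  rw [toAdd_inv, toAdd_ofAdd, ← Finsupp.single_neg, show -(1 : ZMod 2) = 1 by decide]

open Classical in
theorem lamp_smul (t : S) (y : S → Bool) (s : S) :
    ((lamp t : Wreath G S) • y) s = if s = t then !(y s) else y s := by
  rw [smul_def]
  by_cases h : s = t
  · subst h; simp [lamp]
  · simp [lamp, h]

theorem smulC_inr_ev (g : G) (s : S) :
    smulC (SemidirectProduct.inr g : Wreath G S) (ev s) = ev (g • s) := by
  apply SetLike.ext; intro y
  rw [mem_smulC, mem_ev, mem_ev, ← map_inv, inr_smul, inv_inv]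

theorem smulC_lamp_ev_self (s : S) : smulC (lamp s : Wreath G S) (ev s) = (ev s)ᶜ := by
  apply SetLike.ext; intro y
  rw [mem_smulC, lamp_inv, mem_compl', mem_ev, mem_ev, lamp_smul, if_pos rfl]
  cases y s <;> simp

theorem smulC_lamp_ev_ne {s t : S} (h : s ≠ t) : smulC (lamp t : Wreath G S) (ev s) = ev s := by
  apply SetLike.ext; intro y
  rw [mem_smulC, lamp_inv, mem_ev, mem_ev, lamp_smul, if_neg h]

theorem smulC_compl (q : Wreath G S) (U : Clopens (S → Bool)) : smulC q Uᶜ = (smulC q U)ᶜ := rfl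

/-- The clopens given by two coordinates. -/
def two (a b : S) (A : Set (Bool × Bool)) : Clopens (S → Bool) :=
  pull (fun y => (y a, y b)) ((continuous_apply a).prodMk (continuous_apply b)) A

theorem mem_two {a b : S} {A : Set (Bool × Bool)} {y : S → Bool} :
    y ∈ two a b A ↔ (y a, y b) ∈ A := Iff.rfl

theorem two_compl (a b : S) (A : Set (Bool × Bool)) : (two a b A)ᶜ = two a b Aᶜ := rfl

theorem two_inf (a b : S) (A A' : Set (Bool × Bool)) :
    two a b A ⊓ two a b A' = two a b (A ∩ A') := rfl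

theorem ev_eq_two_left (a b : S) : ev a = two a b {p | p.1 = true} := rfl

theorem ev_eq_two_right (a b : S) : ev b = two a b {p | p.2 = true} := rfl

theorem top_eq_two (a b : S) : (⊤ : Clopens (S → Bool)) = two a b Set.univ := rfl

theorem set_induction {P : Set (Bool × Bool) → Prop} (hu : P Set.univ) (h1 : P {p | p.1 = true})
    (h2 : P {p | p.2 = true}) (hc : ∀ A, P A → P Aᶜ) (hi : ∀ A A', P A → P A' → P (A ∩ A')) :
    ∀ A, P A := by
  classical
  have hs : ∀ A A', P A → P A' → P (A ∪ A') := fun A A' h h' => by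
    have := hc _ (hi _ _ (hc _ h) (hc _ h'))
    rwa [Set.compl_inter, compl_compl, compl_compl] at this
  have hpt : ∀ p : Bool × Bool, P {p} := by
    rintro ⟨x, z⟩
    have ha : P {p : Bool × Bool | p.1 = x} := by
      cases x
      · convert hc _ h1 using 1; ext p; simp
      · exact h1
    have hb : P {p : Bool × Bool | p.2 = z} := by
      cases z
      · convert hc _ h2 using 1; ext p; simp
      · exact h2
    convert hi _ _ ha hb using 1
    ext p; simp [Prod.ext_iff]
  intro A
  have key : ∀ F : Finset (Bool × Bool), P (F : Set (Bool × Bool)) := by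
    intro F
    induction F using Finset.induction_on with
    | empty => convert hc _ hu using 1; simp
    | @insert p F _ ih => rw [Finset.coe_insert, Set.insert_eq]; exact hs _ _ (hpt p) ih
  simpa using key A.toFinite.toFinset

open Classical in
/-- Clopens as an algebra of events. -/
theorem events (hfg : ∀ a : S, (MulAction.stabilizer G a).FG) {a₀ a₁ : S} (hne : a₀ ≠ a₁)
    (trans2 : ∀ a b c d : S, a ≠ b → c ≠ d → ∃ g : G, g • a = c ∧ g • b = d)
    (htr : ∀ s : S, ∃ g : G, g • a₀ = s) : Nonempty (EventPres (S → Bool) (Wreath G S)) := by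
  obtain ⟨H, hH⟩ := hfg a₀
  obtain ⟨g₁, hg₁⟩ := htr a₁
  let base : Finset (Clopens (S → Bool)) := Finset.univ.image (two a₀ a₁)
  have hb : ∀ A, two a₀ a₁ A ∈ base := fun A => Finset.mem_image.2 ⟨A, Finset.mem_univ _, rfl⟩
  have hbe : ∀ U ∈ base, ∃ A, two a₀ a₁ A = U := fun U hU => by simpa [base] using hU
  have h0 : ev a₀ ∈ base := ev_eq_two_left a₀ a₁ ▸ hb _
  have h1 : ev a₁ ∈ base := ev_eq_two_right a₀ a₁ ▸ hb _
  refine ⟨{
    base := base
    top_mem := top_eq_two a₀ a₁ ▸ hb _
    compl_mem := fun U hU => by obtain ⟨A, rfl⟩ := hbe U hU; rw [two_compl]; exact hb _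
    inf_mem := fun U hU V hV => by
      obtain ⟨A, rfl⟩ := hbe U hU
      obtain ⟨A', rfl⟩ := hbe V hV
      rw [two_inf]; exact hb _
    generated := fun P hP hc hi hq => clopens_induction (hP (top_eq_two a₀ a₁ ▸ hb _)) (fun s => ?_) hc hi
    rel := H.image (fun h => ((SemidirectProduct.inr h : Wreath G S), ev a₀, ev a₀)) ∪
      {(lamp a₀, ev a₀, (ev a₀)ᶜ), (SemidirectProduct.inr g₁, ev a₀, ev a₁),
        (lamp a₀, ev a₁, ev a₁)}
    rel_true := ?_
    extend := ?_ }⟩
  · obtain ⟨g, rfl⟩ := htr s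
    rw [← smulC_inr_ev]
    exact hq _ _ (hP h0)
  · intro x hx
    simp only [Finset.mem_union, Finset.mem_image, Finset.mem_insert, Finset.mem_singleton] at hx
    rcases hx with ⟨h, hh, rfl⟩ | rfl | rfl | rfl
    · refine ⟨h0, h0, ?_⟩
      rw [smulC_inr_ev]
      exact congrArg ev (MulAction.mem_stabilizer_iff.1 (hH ▸ Subgroup.subset_closure hh))
    · exact ⟨h0, by rw [ev_eq_two_left a₀ a₁, two_compl]; exact hb _, smulC_lamp_ev_self _⟩
    · exact ⟨h0, h1, by rw [smulC_inr_ev, hg₁]⟩
    · exact ⟨h1, h1, smulC_lamp_ev_ne hne.symm⟩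
  intro E σ f hσ hf hr
  have hrel : ∀ h ∈ H, σ (SemidirectProduct.inr h) (f (ev a₀)) = f (ev a₀) := fun h hh =>
    hr _ (Finset.mem_union_left _ (Finset.mem_image.2 ⟨h, hh, rfl⟩))
  have ht0 : σ (lamp a₀) (f (ev a₀)) = E.compl (f (ev a₀)) := by
    rw [← hf.map_compl _ h0]
    exact hr (lamp a₀, ev a₀, (ev a₀)ᶜ) (by simp)
  have hg : σ (SemidirectProduct.inr g₁) (f (ev a₀)) = f (ev a₁) :=
    hr (SemidirectProduct.inr g₁, ev a₀, ev a₁) (by simp)
  have ht1 : σ (lamp a₀) (f (ev a₁)) = f (ev a₁) := hr (lamp a₀, ev a₁, ev a₁) (by simp)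
  have hstab : ∀ g ∈ MulAction.stabilizer G a₀,
      σ (SemidirectProduct.inr g) (f (ev a₀)) = f (ev a₀) := by
    intro g hg
    rw [← hH] at hg
    induction hg using Subgroup.closure_induction with
    | mem x hx => exact hrel x hx
    | one => simp
    | mul x y _ _ hx hy => rw [map_mul, map_mul, Equiv.Perm.mul_apply, hy, hx]
    | inv x _ hx =>
      rw [map_inv, map_inv, Equiv.Perm.inv_eq_iff_eq]
      exact hx.symm
  choose c hc using htr
  let ε : S → E.B := fun s => σ (SemidirectProduct.inr (c s)) (f (ev a₀))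
  have hε : ∀ g, σ (SemidirectProduct.inr g) (f (ev a₀)) = ε (g • a₀) := by
    intro g
    have hm : (c (g • a₀))⁻¹ * g ∈ MulAction.stabilizer G a₀ := by
      rw [MulAction.mem_stabilizer_iff, mul_smul, inv_smul_eq_iff, hc]
    conv_lhs => rw [show g = c (g • a₀) * ((c (g • a₀))⁻¹ * g) by group]
    rw [map_mul, map_mul, Equiv.Perm.mul_apply, hstab _ hm]
  have hgε : ∀ g s, σ (SemidirectProduct.inr g) (ε s) = ε (g • s) := by
    intro g s
    have := hε (g * c s)
    rw [mul_smul, hc, map_mul, map_mul, Equiv.Perm.mul_apply] at this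
    exact this
  have hε0 : ε a₀ = f (ev a₀) := by
    simpa using (hε 1).symm
  have hε1 : ε a₁ = f (ev a₁) := by rw [← hg, hε, hg₁]
  have hpair : ∀ s s', s ≠ s' → ∃ g : G, g • a₀ = s ∧ g • a₁ = s' := fun s s' h =>
    trans2 a₀ a₁ s s' hne h
  have hcom : ∀ s s', E.com (ε s) (ε s') := by
    intro s s'
    by_cases h : s = s'
    · rw [h]; exact E.com_refl _
    obtain ⟨g, e0, e1⟩ := hpair s s' h
    rw [← e0, ← e1, ← hgε, ← hgε, hε0, hε1]
    exact hσ.com _ _ _ (hf.com _ h0 _ h1)
  have hlamp : ∀ g s, σ (lamp (g • a₀)) (ε (g • s)) =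
      σ (SemidirectProduct.inr g) (σ (lamp a₀) (ε s)) := by
    intro g s
    rw [← inr_lamp, map_mul, map_mul, Equiv.Perm.mul_apply, Equiv.Perm.mul_apply, ← hgε g s,
      map_inv]
    rw [Equiv.Perm.inv_def, Equiv.symm_apply_apply]
  have hlε : ∀ t s, σ (lamp t) (ε s) = if s = t then E.compl (ε s) else ε s := by
    intro t s
    by_cases h : s = t
    · rw [if_pos h]
      subst h
      have := hlamp (c s) a₀
      rw [hc, hε0, ht0, hσ.map_compl] at this
      exact this
    · rw [if_neg h]
      obtain ⟨g, e0, e1⟩ := hpair t s (Ne.symm h)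
      rw [← e0, ← e1, hlamp, hε1, ht1, ← hε1, hgε]
  let Blk : E.Block := ⟨Set.range ε, by rintro _ ⟨s, rfl⟩ _ ⟨t, rfl⟩; exact hcom s t⟩
  obtain ⟨F, hcomF, hFt, hFc, hFi, hFev⟩ : ∃ F : Clopens (S → Bool) → E.B,
      (∀ U V, E.com (F U) (F V)) ∧ F ⊤ = E.top ∧ (∀ U, F Uᶜ = E.compl (F U)) ∧
        (∀ U V, F (U ⊓ V) = E.inf (F U) (F V)) ∧ ∀ s, F (ev s) = ε s := by
    obtain ⟨F, hFt, hFc, hFi, hFe⟩ :=
      exists_hom (fun s => (Blk.mem (x := ε s) ⟨s, rfl⟩ : Blk.Elem))
    exact ⟨fun U => (F U).1, fun U V => (F U).com (F V), congrArg Subtype.val hFt,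
      fun U => congrArg Subtype.val (hFc U), fun U V => congrArg Subtype.val (hFi U V),
      fun s => congrArg Subtype.val (hFe s)⟩
  have hl : ∀ v : Lamps S, ∀ s, F (smulC (SemidirectProduct.inl v : Wreath G S) (ev s)) =
      σ (SemidirectProduct.inl v) (ε s) := by
    intro v
    induction v using Multiplicative.rec with
    | _ v =>
      induction v using Finsupp.induction with
      | zero => intro s; simp [hFev]
      | single_add t b v _ _ ih =>
        intro s
        rcases (by decide : ∀ b : ZMod 2, b = 0 ∨ b = 1) b with rfl | rfl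
        · simpa using ih s
        · rw [ofAdd_add, mul_comm, map_mul, ← smulC_smulC, map_mul, Equiv.Perm.mul_apply,
            show (SemidirectProduct.inl (Multiplicative.ofAdd (Finsupp.single t (1 : ZMod 2))) :
              Wreath G S) = lamp t from rfl, hlε]
          by_cases h : s = t
          · subst h
            rw [if_pos rfl, smulC_lamp_ev_self, smulC_compl, hFc, hσ.map_compl, ← ih]
          · rw [if_neg h, smulC_lamp_ev_ne h]
            exact ih s
  have hgen : ∀ U, ∀ q, F (smulC q U) = σ q (F U) := by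
    refine clopens_induction (P := {U | ∀ q, F (smulC q U) = σ q (F U)}) ?_ ?_ ?_ ?_
    · intro q
      rw [smulC_top, hFt]
      exact (hσ.map_top q).symm
    · intro s q
      rw [← SemidirectProduct.inl_left_mul_inr_right q, ← smulC_smulC, map_mul,
        Equiv.Perm.mul_apply, hFev, smulC_inr_ev, hgε]
      exact hl _ _
    · intro U hU q
      rw [smulC_compl, hFc, hFc, hσ.map_compl, hU]
    · intro U hU V hV q
      rw [smulC_inf, hFi, hFi, hσ.map_inf _ _ _ (hcomF U V), hU, hV]
  refine ⟨F, ⟨fun U _ V _ => hcomF U V, hFt, fun U _ => hFc U, fun U _ V _ => hFi U V⟩,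
    fun q U => hgen U q, fun U hU => ?_⟩
  obtain ⟨A, rfl⟩ := hbe U hU
  refine set_induction (P := fun A => F (two a₀ a₁ A) = f (two a₀ a₁ A)) ?_ ?_ ?_ ?_ ?_ A
  · rw [← top_eq_two, hFt, hf.map_top]
  · rw [← ev_eq_two_left, hFev, hε0]
  · rw [← ev_eq_two_right, hFev, hε1]
  · intro A h
    rw [← two_compl, hFc, hf.map_compl _ (hb A), h]
  · intro A A' h h'
    rw [← two_inf, hFi, hf.map_inf _ (hb A) _ (hb A'), h, h']

theorem effective (hfin : ∀ g : G, {x : S | g • x ≠ x}.Finite → g = 1) :
    Effective (S → Bool) (Wreath G S) := by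
  classical
  intro q U hU hq
  obtain ⟨y₀, hy₀⟩ := clopens_ne_bot.1 hU
  obtain ⟨K, hK⟩ := exists_support U
  have hfix : ∀ y : S → Bool, (∀ i ∈ K, y i = y₀ i) → q • y = y := fun y h =>
    hq y ((hK y y₀ h).2 hy₀)
  have hg : q.right = 1 := by
    refine hfin _ (Set.Finite.subset ((K.finite_toSet.union
      (K.finite_toSet.image (fun k => q.right • k))).union q.left.toAdd.support.finite_toSet) ?_)
    intro s hs
    by_contra hn
    simp only [Set.mem_union, Finset.mem_coe, Set.mem_image, not_or, not_exists, not_and,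
      Finsupp.mem_support_iff, not_not] at hn
    obtain ⟨⟨hsK, hsi⟩, hv⟩ := hn
    have hne : q.right⁻¹ • s ≠ s := fun h => hs (inv_smul_eq_iff.1 h).symm
    let y : S → Bool := fun i =>
      if i = q.right⁻¹ • s then true else if i = s then false else y₀ i
    have hy : q • y = y := hfix y fun i hi => by
      have a : i ≠ q.right⁻¹ • s := fun h => hsi i hi (by rw [h, smul_inv_smul])
      have b : i ≠ s := fun h => hsK (h ▸ hi)
      simp [y, a, b]
    have := congrFun hy s
    simp [smul_def, hv, y, hne.symm] at this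
  refine SemidirectProduct.ext (Multiplicative.toAdd.injective (Finsupp.ext fun s => ?_)) hg
  have := congrFun (hfix y₀ fun _ _ => rfl) s
  rw [smul_def, hg, inv_one, one_smul] at this
  rcases (by decide : ∀ b : ZMod 2, b = 0 ∨ b = 1) (q.left.toAdd s) with h | h
  · simpa using h
  · rw [h] at this; simp at this

theorem minimal (U : Clopens (S → Bool)) (hU : U ≠ ⊥) (y : S → Bool) :
    ∃ q : Wreath G S, q • y ∈ U := by
  classical
  obtain ⟨y₀, hy₀⟩ := clopens_ne_bot.1 hU
  obtain ⟨K, hK⟩ := exists_support U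
  let v : S →₀ ZMod 2 := Finsupp.onFinset K
    (fun s => if s ∈ K ∧ y s ≠ y₀ s then 1 else 0) fun s h => by
      by_contra hn; simp [hn] at h
  refine ⟨SemidirectProduct.inl (Multiplicative.ofAdd v), (hK _ y₀ fun i hi => ?_).2 hy₀⟩
  rw [smul_def]
  simp only [SemidirectProduct.left_inl, SemidirectProduct.right_inl, inv_one, one_smul,
    toAdd_ofAdd, v, Finsupp.onFinset_apply]
  by_cases h : y i = y₀ i
  · simp [hi, h]
  · simp [hi, h]
    cases hy : y i <;> cases hy' : y₀ i <;> simp_all

theorem halvable [Infinite S] (U : Clopens (S → Bool)) :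
    ∃ (W : Clopens (S → Bool)) (q : Wreath G S),
      Disjoint W (smulC q W) ∧ U = W ⊔ smulC q W := by
  classical
  obtain ⟨K, hK⟩ := exists_support U
  obtain ⟨s, hs⟩ := Infinite.exists_notMem_finset K
  refine ⟨U ⊓ ev s, lamp s, ?_⟩
  have hU : smulC (lamp s : Wreath G S) U = U := by
    apply SetLike.ext; intro y
    rw [mem_smulC, lamp_inv]
    exact hK _ _ fun i hi => by
      have : i ≠ s := fun e => hs (e ▸ hi)
      rw [lamp_smul, if_neg this]
  rw [smulC_inf, hU, smulC_lamp_ev_self]
  refine ⟨(disjoint_compl_right.mono inf_le_right inf_le_right), ?_⟩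
  rw [← inf_sup_left, sup_compl_eq_top, inf_top_eq]

theorem lampGoal : LampGoal := by
  intro T
  classical
  have : Infinite T.S := T.infinite
  have : Group.IsFinitelyPresented T.G := T.fp
  obtain ⟨a₀, a₁, hne⟩ := exists_pair_ne T.S
  have htr : ∀ s : T.S, ∃ g : T.G, g • a₀ = s := by
    intro s
    obtain ⟨d, hd⟩ := exists_ne s
    obtain ⟨g, hg, -⟩ := T.trans2 a₀ a₁ s d hne hd.symm
    exact ⟨g, hg⟩
  refine ⟨{
    Y := T.S → Bool
    Q := Wreath T.G T.S
    point := fun _ => false
    separated := fun x y h => ?_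
    fp := wreath_fp hne T.trans2 htr (T.stab_fg a₀)
    effective := effective T.no_finitary
    minimal := minimal
    halvable := fun U => Or.inr (halvable U)
    events := events T.stab_fg hne T.trans2 htr }, SemidirectProduct.inr, ?_⟩
  · obtain ⟨s, hs⟩ := Function.ne_iff.1 h
    cases hx : x s
    · exact ⟨(ev s)ᶜ, by simp [mem_compl', mem_ev, hx], by
        simp only [mem_compl', mem_ev, not_not]; cases hy : y s <;> simp_all⟩
    · exact ⟨ev s, by simp [mem_ev, hx], by
        simp only [mem_ev]; cases hy : y s <;> simp_all⟩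
  · exact SemidirectProduct.inr_injective

end Vale.Agent.P193.Bh.Lamp
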